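import Vale.Agent.P073.Cone.Approx

/-!
Sobolev homeomorphisms of bounded domains of three-dimensional space whose derivative lies locally
in a convex set of uniformly nonsingular matrices are approximable by diffeomorphisms onto the same
target.
-/

open Set MeasureTheory Filter
open scoped ContDiff ENNReal Topology

namespace Vale.Agent.Results.P073.ConvexDerivative

open Vale.Agent.P073

/-- Ball-Evans approximation when `Df` lies locally in a convex set of uniformly nonsingular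
matrices. -/
theorem result (p : ℝ) (hp : 1 ≤ p) (Ω Λ : Set E3) (hΩ : IsOpen Ω)
    (hΩc : IsPreconnected Ω) (hΩb : Bornology.IsBounded Ω) (hΛ : IsOpen Λ)
    (hΛb : Bornology.IsBounded Λ) (f : E3 → E3) (G : Fin 3 → E3 → E3 →L[ℝ] ℝ)
    (hfc : ContinuousOn f Ω) (hbij : BijOn f Ω Λ)
    (hinv : ContinuousOn (Function.invFunOn f Ω) Λ) (hf : IsW1p p Ω f G)
    (hcone : ∀ x ∈ Ω, ∃ U, IsOpen U ∧ x ∈ U ∧ ∃ c > 0, Cone.ConeOn G U c) :
    ∃ g : ℕ → E3 → E3,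
      (∀ j, Cone.IsSmoothDiffeo Ω Λ (g j) ∧ IsW1p p Ω (g j) (Cone.compGrad coord (g j))) ∧
      ∀ i, Tendsto (fun j => Cone.w1pDist volume p Ω (fun x => g j x i) (fun x => f x i) (G i))
        atTop (𝓝 0) := by
  have h : ∀ j : ℕ, ∃ g : EuclideanSpace ℝ (Fin 3) → EuclideanSpace ℝ (Fin 3),
      ContDiffOn ℝ ∞ g Ω ∧ BijOn g Ω Λ ∧ ContDiffOn ℝ ∞ (Function.invFunOn g Ω) Λ ∧
      IsW1p p Ω g (fun i x => fderiv ℝ (fun y => g y i) x) ∧
      ∀ i, (∫⁻ x in Ω, ‖g x i - f x i‖ₑ ^ p) ≤ ((j : ℝ≥0∞) + 1)⁻¹ ∧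
        (∫⁻ x in Ω, ‖fderiv ℝ (fun y => g y i) x - G i x‖ₑ ^ p) ≤ ((j : ℝ≥0∞) + 1)⁻¹ :=
    fun j => Cone.exists_approx hp hΩ hΩc hΩb hΛ hΛb hfc hbij hinv hf hcone
      (ENNReal.inv_ne_zero.2 (by finiteness))
  choose g hg1 hg2 hg3 hg4 hg5 using h
  refine ⟨g, fun j => ⟨⟨hg1 j, hg2 j, hg3 j⟩, hg4 j⟩, fun i => ?_⟩
  have hlim : Tendsto (fun j : ℕ => ((j : ℝ≥0∞) + 1)⁻¹) atTop (𝓝 0) := by
    have := ENNReal.tendsto_inv_nat_nhds_zero.comp (tendsto_add_atTop_nat 1)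
    simpa [Function.comp_def] using this
  refine tendsto_of_tendsto_of_tendsto_of_le_of_le tendsto_const_nhds
    (by simpa using hlim.add hlim) (fun _ => zero_le) fun j => ?_
  rw [Cone.w1pDist, lintegral_add_left']
  · exact add_le_add (hg5 j i).1 (hg5 j i).2
  · exact ((hg4 j i).1.1.sub (hf i).1.1).enorm.pow_const p

end Vale.Agent.Results.P073.ConvexDerivative
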