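import Vale.Agent.P073.Core
import Vale.Agent.P073.Line

/-!
Sobolev homeomorphisms of bounded domains of three-dimensional space that move every point
parallel to a fixed vector are approximable by diffeomorphisms onto the same image.
-/

open Set MeasureTheory Filter
open scoped ContDiff ENNReal Topology

namespace Vale.Agent.Results.P073.OneCoordinate

open Vale.Agent.P073

/-- Ball-Evans approximation for the maps `f x = x + t(x) e`. -/
theorem result (p : ℝ) (hp : 1 ≤ p) (Ω Λ : Set (EuclideanSpace ℝ (Fin 3))) (hΩ : IsOpen Ω)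
    (hbd : Bornology.IsBounded Ω)
    (f : EuclideanSpace ℝ (Fin 3) → EuclideanSpace ℝ (Fin 3))
    (G : Fin 3 → EuclideanSpace ℝ (Fin 3) → EuclideanSpace ℝ (Fin 3) →L[ℝ] ℝ)
    (hfc : ContinuousOn f Ω) (hbij : BijOn f Ω Λ) (hf : IsW1p p Ω f G)
    (e : EuclideanSpace ℝ (Fin 3)) (hline : ∀ x ∈ Ω, ∃ t : ℝ, f x = x + t • e) :
    IsOpen Λ ∧ ∃ g : ℕ → EuclideanSpace ℝ (Fin 3) → EuclideanSpace ℝ (Fin 3),
      (∀ j, ContDiffOn ℝ ∞ (g j) Ω ∧ BijOn (g j) Ω Λ ∧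
        ContDiffOn ℝ ∞ (Function.invFunOn (g j) Ω) Λ ∧
        IsW1p p Ω (g j) (fun i x => fderiv ℝ (fun y => g j y i) x) ∧
        ∀ x ∈ Ω, ∃ t : ℝ, g j x = x + t • e) ∧
      ∀ i, Tendsto (fun j => ∫⁻ x in Ω, (‖g j x i - f x i‖ₑ ^ p +
        ‖fderiv ℝ (fun y => g j y i) x - G i x‖ₑ ^ p)) atTop (𝓝 0) := by
  have h := fun ε hε => line_approx core p hp Ω hΩ hbd f G hfc hbij.injOn hf e hline ε hε
  rw [hbij.image_eq] at h
  choose g hg1 hg2 hg3 hg4 hg5 hg6 hg7 using fun j : ℕ => h (1 / (j + 1 : ℝ)) (by positivity)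
  refine ⟨hg3 0, g, fun j => ⟨hg1 j, hg2 j, hg4 j, hg5 j, hg6 j⟩, fun i => ?_⟩
  refine tendsto_of_tendsto_of_tendsto_of_le_of_le tendsto_const_nhds ?_ (fun j => zero_le)
    fun j => hg7 j i
  simpa using ENNReal.tendsto_ofReal tendsto_one_div_add_atTop_nhds_zero_nat

end Vale.Agent.Results.P073.OneCoordinate
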